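import Vale.Agent.P022D.Good.Core

namespace Vale.Agent.P022E.Good
export Vale.Agent.P022D.Good (
  M2 exists_diag ab_ne conj_h trace_zero_of_norm trace_zero_of_pow sq_eq theta_ne
  diag_of_comm map_trace disc_lin conj_mul disc_ne odd_pow scalar_of_trace trace_sq disc
  trace_lin map_det det_ne ent_mul map_disc diag_of_orth)
end Vale.Agent.P022E.Good
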